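import Vale.Agent.P092SY.Basic

/-!
P092 (helper11), the concrete two-sided system: the position calculus and the Fourier components.
-/

set_option linter.all false

open scoped InnerProductSpace ENNReal
open MeasureTheory Filter Topology ContinuousLinearMap

namespace Vale.Agent.P092FA.Fr

open Vale.Agent.P092CP Vale.Agent.P092ST Vale.Agent.P092ST.Amb Vale.Agent.P092SY
open Vale.Agent.P092.RC (Cm)

variable {G G' K 𝒦 : Type} [Group G] [TopologicalSpace G] [IsTopologicalGroup G]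
  [LocallyCompactSpace G] [SecondCountableTopology G] [T2Space G] [MeasurableSpace G] [BorelSpace G]
  [Group G'] [TopologicalSpace G'] [IsTopologicalGroup G'] [LocallyCompactSpace G']
  [SecondCountableTopology G'] [T2Space G'] [MeasurableSpace G'] [BorelSpace G']
  [NormedAddCommGroup K] [InnerProductSpace ℂ K] [CompleteSpace K] {μ : Measure G}
  [μ.IsHaarMeasure] {μ' : Measure G'} [μ'.IsHaarMeasure] {W : Set (K →L[ℂ] K)}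
  [NormedAddCommGroup 𝒦] [InnerProductSpace ℂ 𝒦] [CompleteSpace 𝒦]
  {C : Cpl μ μ' W} {A : Amb G C.t.Γ 𝒦} (Φ : Fr C A) {d x y T T' : 𝒦 →L[ℂ] 𝒦} {g h : G}
  {f f' : C.t.Γ → ℝ} {γ δ : C.t.Γ}

theorem cells_one (γ : C.t.Γ) : cells C.t {γ} = C.t.cell γ := Set.biUnion_singleton _ _

theorem Pj_cell (γ : C.t.Γ) (i : ℕ) (ξ : K) :
    A.Pj {γ} (Φ.ι i ξ) = Φ.ι i (C.t.P (C.t.cell γ) ξ) := by rw [Φ.Pj_ι, cells_one]

theorem adj_cell (γ : C.t.Γ) (i : ℕ) (ξ : 𝒦) :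
    adjoint (Φ.ι i) (A.Pj {γ} ξ) = C.t.P (C.t.cell γ) (adjoint (Φ.ι i) ξ) := by
  rw [Φ.adj_Pj, cells_one]

include Φ

theorem Pj_Ω (i : ℕ) : A.Pj {1} (A.Ω i) = A.Ω i := by
  rw [Φ.Ω_eq, Φ.Pj_cell, C.t.cell_one, C.t.P_Ω]

/-- Pythagoras -/
theorem enorm_Pj (ξ : 𝒦) : ‖ξ‖ₑ ^ 2 = ∑' γ, ‖A.Pj {γ} ξ‖ₑ ^ 2 := by
  have := C.t.cnt
  simp only [Φ.enorm_tot (A.Pj _ ξ), Φ.adj_cell]
  rw [ENNReal.tsum_comm, Φ.enorm_tot ξ]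
  exact tsum_congr fun i => C.t.enorm_tsum_P C.t.meas_cell C.t.fund _

theorem zero_of_Pj {ξ : 𝒦} (h : ∀ γ, A.Pj {γ} ξ = 0) : ξ = 0 := by
  simpa [h] using Φ.enorm_Pj ξ

theorem ext_Pj' (e : ∀ δ, A.Pj {δ} * T = A.Pj {δ} * T') : T = T' :=
  ContinuousLinearMap.ext fun ξ => sub_eq_zero.1 (Φ.zero_of_Pj fun γ => by
    rw [map_sub, ← mul_ap, e, mul_ap, sub_self])

theorem ext_Pj (e : ∀ δ, T * A.Pj {δ} = T' * A.Pj {δ}) : T = T' :=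
  star_injective (Φ.ext_Pj' fun δ => by rw [← A.Pj_star, ← star_mul, ← star_mul, e])

theorem sqi_Pj (e : C.t.Γ ≃ C.t.Γ) : SqI Measure.count (fun δ => A.Pj {e δ}) 1 :=
  have := C.t.cnt
  ⟨fun ξ => StronglyMeasurable.of_discrete.aestronglyMeasurable, zero_le_one, fun ξ => by
    rw [lintegral_count, e.tsum_eq fun γ => ‖A.Pj {γ} ξ‖ₑ ^ 2, ← Φ.enorm_Pj]; simp⟩

theorem sqi_glue (e : C.t.Γ → C.t.Γ) {T : C.t.Γ → 𝒦 →L[ℂ] 𝒦} {c : ℝ} (h : ∀ δ, ‖T δ‖ ≤ c) :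
    SqI Measure.count (fun δ => A.Pj {e δ} * T δ * A.Pj {δ}) (c * 1) :=
  have := C.t.cnt
  (Φ.sqi_Pj (Equiv.refl _)).mono (fun ξ => StronglyMeasurable.of_discrete.aestronglyMeasurable)
    ((norm_nonneg _).trans (h 1)) fun δ ξ => ((A.Pj _).le_of_opNorm_le (norm_Pj _) _).trans
      ((one_mul _).trans_le ((T δ).le_of_opNorm_le (h δ) _))

theorem norm_glue (e : C.t.Γ ≃ C.t.Γ) {T : C.t.Γ → 𝒦 →L[ℂ] 𝒦} {c : ℝ} (h : ∀ δ, ‖T δ‖ ≤ c) :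
    ‖glue A e T‖ ≤ c := by simpa [glue] using (Φ.sqi_Pj e).norm_gram (Φ.sqi_glue e h)

theorem glue_Pj (e : C.t.Γ ≃ C.t.Γ) {T : C.t.Γ → 𝒦 →L[ℂ] 𝒦} {c : ℝ} (h : ∀ δ, ‖T δ‖ ≤ c)
    (δ : C.t.Γ) : glue A e T * A.Pj {δ} = A.Pj {e δ} * T δ * A.Pj {δ} :=
  ContinuousLinearMap.ext fun η => ext_inner_left ℂ fun ξ => by
    have := C.t.cnt
    rw [mul_ap, glue, (Φ.sqi_Pj e).inner_gram (Φ.sqi_glue e h),
      ← setIntegral_eq_integral_of_forall_compl_eq_zero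
      (s := {δ}) fun ε hε => by rw [← mul_ap, mul_assoc, Pj_ne hε, mul_zero]; simp,
      integral_singleton, Measure.real, Measure.count_singleton, ENNReal.toReal_one, one_smul,
      ← adjoint_inner_right, ← star_eq_adjoint, A.Pj_star, ← mul_ap, ← mul_ap, ← mul_assoc,
      ← mul_assoc, Pj_sq, mul_assoc, Pj_sq]

/-! ### the position calculus -/

theorem Mf_Pj (hf : P092WN.Bd f) (δ : C.t.Γ) : Mf A f * A.Pj {δ} = (f δ : ℂ) • A.Pj {δ} := by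
  obtain ⟨c, hc⟩ := hf
  have h := Φ.glue_Pj (Equiv.refl _) (T := fun δ => (f δ : ℂ) • 1) (c := c)
    (fun δ => (norm_smul_one_le _).trans (by rw [Complex.norm_real]; exact hc δ)) δ
  rwa [mul_smul_comm, mul_one, smul_mul_assoc, Equiv.refl_apply, Pj_sq] at h

theorem Pj_Mf (hf : P092WN.Bd f) (δ : C.t.Γ) : A.Pj {δ} * Mf A f = (f δ : ℂ) • A.Pj {δ} :=
  Φ.ext_Pj fun γ => by
    rw [mul_assoc, Φ.Mf_Pj hf, mul_smul_comm, smul_mul_assoc]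
    rcases eq_or_ne δ γ with rfl | h
    · rfl
    · rw [Pj_ne h, smul_zero, smul_zero]

theorem star_Mf (hf : P092WN.Bd f) : star (Mf A f) = Mf A f := Φ.ext_Pj fun δ => by
  rw [Φ.Mf_Pj hf, ← A.Pj_star, ← star_mul, Φ.Pj_Mf hf, star_smul, Complex.star_def,
    Complex.conj_ofReal]

theorem norm_Mf_le (hf : P092WN.Bd f') (h : ∀ γ, |f γ| ≤ |f' γ|) (ξ : 𝒦) :
    ‖Mf A f ξ‖ ≤ ‖Mf A f' ξ‖ := by
  have h1 : P092WN.Bd f := hf.imp fun c hc γ => (h γ).trans (hc γ)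
  rw [← enorm_le_iff_norm_le, ← ENNReal.pow_le_pow_left_iff two_ne_zero, Φ.enorm_Pj,
    Φ.enorm_Pj (Mf A f' ξ)]
  refine ENNReal.tsum_le_tsum fun γ => pow_le_pow_left' (enorm_le_iff_norm_le.2 ?_) 2
  rw [← mul_ap, ← mul_ap, Φ.Pj_Mf h1, Φ.Pj_Mf hf, smul_apply, smul_apply, norm_smul, norm_smul,
    Complex.norm_real, Complex.norm_real]
  exact mul_le_mul_of_nonneg_right (h γ) (norm_nonneg _)

omit Φ in
theorem bd_add (hf : P092WN.Bd f) (hf' : P092WN.Bd f') : P092WN.Bd fun γ => f γ + f' γ :=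
  let ⟨c, h⟩ := hf; let ⟨c', h'⟩ := hf'
  ⟨c + c', fun γ => (abs_add_le _ _).trans (add_le_add (h γ) (h' γ))⟩

omit Φ in
theorem bd_mul (hf : P092WN.Bd f) (hf' : P092WN.Bd f') : P092WN.Bd fun γ => f γ * f' γ :=
  let ⟨c, h⟩ := hf; let ⟨c', h'⟩ := hf'
  ⟨c * c', fun γ => (abs_mul _ _).trans_le
    (mul_le_mul (h γ) (h' γ) (abs_nonneg _) ((abs_nonneg _).trans (h γ)))⟩

theorem Mf_add (hf : P092WN.Bd f) (hf' : P092WN.Bd f') :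
    Mf A (fun γ => f γ + f' γ) = Mf A f + Mf A f' := Φ.ext_Pj fun δ => by
  rw [add_mul, Φ.Mf_Pj hf, Φ.Mf_Pj hf', Φ.Mf_Pj (bd_add hf hf'), Complex.ofReal_add, add_smul]

theorem Mf_mul (hf : P092WN.Bd f) (hf' : P092WN.Bd f') :
    Mf A (fun γ => f γ * f' γ) = Mf A f * Mf A f' := Φ.ext_Pj fun δ => by
  rw [mul_assoc, Φ.Mf_Pj hf', mul_smul_comm, Φ.Mf_Pj hf, Φ.Mf_Pj (bd_mul hf hf'),
    Complex.ofReal_mul, smul_smul, mul_comm]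

theorem Mf_const (c : ℝ) : Mf A (fun _ => c) = (c : ℂ) • 1 := Φ.ext_Pj fun δ => by
  rw [Φ.Mf_Pj ⟨|c|, fun _ => le_rfl⟩, smul_mul_assoc, one_mul]

theorem Mf_ind (X : Set C.t.Γ) : Mf A (X.indicator 1) = A.Pj X := Φ.ext_Pj fun δ => by
  rw [Φ.Mf_Pj ⟨1, fun γ => by by_cases h : γ ∈ X <;> simp [h]⟩]
  by_cases h : δ ∈ X
  · have h1 := congrArg (· * A.Pj {δ}) (A.Pj_compl X)
    simp only [add_mul, A.Pj_disj Xᶜ {δ} (by simpa using h), add_zero, one_mul] at h1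
    simp [h, h1]
  · simp [h, A.Pj_disj X {δ} (by simpa using h)]

/-! ### the Fourier components -/

theorem fc_Pj (γ δ : C.t.Γ) (T : 𝒦 →L[ℂ] 𝒦) :
    fc A γ T * A.Pj {δ} = A.Pj {γ * δ} * T * A.Pj {δ} :=
  Φ.glue_Pj (Equiv.mulLeft γ) (fun _ => le_refl ‖T‖) δ

theorem norm_fc (γ : C.t.Γ) (T : 𝒦 →L[ℂ] 𝒦) : ‖fc A γ T‖ ≤ ‖T‖ :=
  Φ.norm_glue (Equiv.mulLeft γ) fun _ => le_refl ‖T‖

theorem Pj_fc (γ δ : C.t.Γ) (T : 𝒦 →L[ℂ] 𝒦) :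
    A.Pj {γ * δ} * fc A γ T = fc A γ T * A.Pj {δ} := Φ.ext_Pj fun ε => by
  rw [mul_assoc, Φ.fc_Pj, ← mul_assoc, ← mul_assoc, mul_assoc (fc A γ T)]
  rcases eq_or_ne δ ε with rfl | h
  · rw [Pj_sq, Pj_sq, Φ.fc_Pj]
  · rw [Pj_ne h, Pj_ne fun e => h (mul_left_cancel e), zero_mul, zero_mul, mul_zero]

theorem fc_Ω (γ : C.t.Γ) (T : 𝒦 →L[ℂ] 𝒦) (i : ℕ) : fc A γ T (A.Ω i) = A.Pj {γ} (T (A.Ω i)) := by
  have h := ap_eq (Φ.fc_Pj γ 1 T) (A.Ω i)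
  rwa [mul_one, mul_ap, mul_ap, mul_ap, Φ.Pj_Ω] at h

theorem en_fc (γ : C.t.Γ) (T : 𝒦 →L[ℂ] 𝒦) (i j : ℕ) : adjoint (Φ.ι i) ∘L fc A γ T ∘L Φ.ι j =
    C.t.fc γ (adjoint (Φ.ι i) ∘L T ∘L Φ.ι j) := C.t.ext_cell fun δ => by
  rw [C.t.fc_cell]
  refine ContinuousLinearMap.ext fun ξ => ?_
  simp only [mul_ap, comp_apply, ← Φ.Pj_cell, ← Φ.adj_cell]
  exact congrArg _ (ap_eq (Φ.fc_Pj γ δ T) _)

theorem cm_fc (hT : Cm A.𝓦 T) (γ : C.t.Γ) : Cm A.𝓦 (fc A γ T) :=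
  (Φ.cm_iff _).2 fun i j => Φ.en_fc γ T i j ▸ C.t.M_fc ((Φ.cm_iff _).1 hT i j)

theorem fc_mul (hx : ∀ δ, x * A.Pj {δ} = A.Pj {δ} * x) (γ : C.t.Γ) (T : 𝒦 →L[ℂ] 𝒦) :
    fc A γ (T * x) = fc A γ T * x := Φ.ext_Pj fun δ => by
  rw [Φ.fc_Pj, mul_assoc _ x, hx, ← mul_assoc (fc A γ T), Φ.fc_Pj, mul_assoc _ _ x, ← hx]
  simp only [mul_assoc]

theorem mul_fc (hx : ∀ δ, x * A.Pj {δ} = A.Pj {δ} * x) (γ : C.t.Γ) (T : 𝒦 →L[ℂ] 𝒦) :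
    fc A γ (x * T) = x * fc A γ T := Φ.ext_Pj fun δ => by
  rw [Φ.fc_Pj, mul_assoc x, Φ.fc_Pj, ← mul_assoc, ← mul_assoc x, ← mul_assoc x, hx]

theorem deg_fc (hT : A.Deg g T) (γ : C.t.Γ) : A.Deg g (fc A γ T) := by
  have h := Φ.cm_fc hT γ
  rwa [Φ.fc_mul fun δ => A.Pj_SH _ _] at h

theorem hs_fc (hT : A.HS T) (γ : C.t.Γ) : A.HS (fc A γ T) := by
  have h := hT.mul (A.Pj {γ})
  simpa only [HS, mul_ap, Φ.fc_Ω] using h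

theorem vec_fc (hT : A.HS T) (γ : C.t.Γ) : A.vec (fc A γ T) = A.vec (A.Pj {γ} * T) :=
  lp.ext (funext fun i => by rw [(Φ.hs_fc hT γ).vec_ap, (hT.mul _).vec_ap, Φ.fc_Ω, mul_ap])

theorem Mf_fc (hf : P092WN.Bd f) (γ : C.t.Γ) (T : 𝒦 →L[ℂ] 𝒦) :
    Mf A f * fc A γ T = fc A γ T * Mf A fun δ => f (γ * δ) := Φ.ext_Pj fun δ => by
  rw [mul_assoc, mul_assoc, Φ.Mf_Pj (hf.imp fun c h δ => h _), ← Φ.Pj_fc, ← mul_assoc, Φ.Mf_Pj hf,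
    mul_smul_comm, smul_mul_assoc, Φ.Pj_fc]

theorem inv_Pj (γ : C.t.Γ) : Inv A (A.Pj {γ}) :=
  inv_of fun d hd => Φ.vec_fc hd.2 γ ▸ mem_cl ⟨Φ.cm_fc hd.1 γ, Φ.hs_fc hd.2 γ⟩

theorem mem_of_Pj {η : l2 𝒦} (h : ∀ γ, diag (A.Pj {γ}) η ∈ HH A) : η ∈ HH A := by
  refine Submodule.starProjection_eq_self_iff.1 (sub_eq_zero.1 (lp.ext (funext fun i =>
    Φ.zero_of_Pj fun γ => ?_))).symm
  have h1 : diag (A.Pj {γ}) (η - (HH A).starProjection η) ∈ HH A := by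
    rw [map_sub]
    exact sub_mem (h γ) (Φ.inv_Pj γ ⟨_, (HH A).starProjection_apply_mem η⟩)
  have h2 := (HH A).sub_starProjection_mem_orthogonal η _ (Φ.inv_Pj γ ⟨_, h1⟩)
  have h3 := inner_diag (A.Pj {γ}) (diag (A.Pj {γ}) (η - (HH A).starProjection η))
    (η - (HH A).starProjection η)
  rw [A.Pj_star] at h3
  exact congrArg (fun ζ : l2 𝒦 => ζ i) (inner_self_eq_zero.1 (h3.symm.trans h2))

theorem inv_Mf (hf : P092WN.Bd f) : Inv A (Mf A f) := fun ξ => Φ.mem_of_Pj fun γ => by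
  rw [← diag_mul, Φ.Pj_Mf hf, diag_smul]
  exact (HH A).smul_mem _ (Φ.inv_Pj γ ξ)

end Vale.Agent.P092FA.Fr
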