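import Vale.Agent.P092SY.Bim
import Vale.Agent.P092FA.Defs

/-!
P092 (helper11), the concrete two-sided system: left and right multiplications.
-/

set_option linter.all false

open scoped InnerProductSpace ENNReal
open MeasureTheory Filter Topology ContinuousLinearMap

namespace Vale.Agent.P092SY

open Vale.Agent.P092CP Vale.Agent.P092ST Vale.Agent.P092ST.Amb Vale.Agent.P092FA
open Vale.Agent.P092.RC (Cm)

section gen

variable {E : Type} [NormedAddCommGroup E] [InnerProductSpace ℂ E] [CompleteSpace E]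

theorem diag_ap (a : E →L[ℂ] E) (ξ : l2 E) (i : ℕ) : diag a ξ i = a (ξ i) := rfl

theorem norm_diag (a : E →L[ℂ] E) : ‖diag a‖ ≤ ‖a‖ := lp.norm_mapCLM_le _ _ _ _

theorem inner_diag (a : E →L[ℂ] E) (ξ η : l2 E) : ⟪diag (star a) ξ, η⟫_ℂ = ⟪ξ, diag a η⟫_ℂ := by
  simp only [lp.inner_eq_tsum, diag_ap, star_eq_adjoint, adjoint_inner_left]

theorem diag_mul (a b : E →L[ℂ] E) (ξ : l2 E) : diag (a * b) ξ = diag a (diag b ξ) := rfl

theorem diag_add (a b : E →L[ℂ] E) : diag (a + b) = diag a + diag b :=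
  ContinuousLinearMap.ext fun _ => rfl

theorem diag_smul (c : ℂ) (a : E →L[ℂ] E) : diag (c • a) = c • diag a :=
  ContinuousLinearMap.ext fun _ => rfl

variable {Y : Submodule ℂ E} [Y.HasOrthogonalProjection]

theorem inner_rs (a : E →L[ℂ] E) (ξ η : Y) : ⟪ξ, rs Y a η⟫_ℂ = ⟪(ξ : E), a η⟫_ℂ :=
  Submodule.inner_orthogonalProjectionOnto_eq_of_mem_left ξ _

theorem coe_rs {a : E →L[ℂ] E} {ξ : Y} (h : a ξ ∈ Y) : (rs Y a ξ : E) = a ξ :=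
  Submodule.starProjection_eq_self_iff.2 h

theorem norm_rs (a : E →L[ℂ] E) (ξ : Y) : ‖rs Y a ξ‖ ≤ ‖a ξ‖ :=
  Y.norm_orthogonalProjectionOnto_apply_le _

end gen

section amb

variable {G Γ 𝒦 : Type} [Group G] [TopologicalSpace G] [Group Γ] [NormedAddCommGroup 𝒦]
  [InnerProductSpace ℂ 𝒦] [CompleteSpace 𝒦] {A : Amb G Γ 𝒦} {d x y T : 𝒦 →L[ℂ] 𝒦}

/-- the standard bimodule -/
theorem bimA (A : Amb G Γ 𝒦) : Bim {a | Cm A.𝓦 a} (D A) (vv A) := bim fun _ => Iff.rfl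

theorem coe_vv (h : A.vec T ∈ HH A) : (vv A T : l2 𝒦) = A.vec T :=
  Submodule.starProjection_eq_self_iff.2 h

theorem diag_vec (h : A.HS T) (x : 𝒦 →L[ℂ] 𝒦) : diag x (A.vec T) = A.vec (x * T) :=
  lp.ext (funext fun i => by rw [diag_ap, h.vec_ap, (h.mul x).vec_ap]; rfl)

theorem norm_lm (x : 𝒦 →L[ℂ] 𝒦) (ξ : HH A) : ‖lm A x ξ‖ ≤ ‖x‖ * ‖ξ‖ :=
  (norm_rs _ ξ).trans ((diag x).le_of_opNorm_le (norm_diag x) _)

theorem inner_lm (x : 𝒦 →L[ℂ] 𝒦) (ξ η : HH A) : ⟪lm A (star x) ξ, η⟫_ℂ = ⟪ξ, lm A x η⟫_ℂ := by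
  rw [← inner_conj_symm, lm, lm, inner_rs, inner_rs, inner_conj_symm, inner_diag]

theorem adjoint_lm (x : 𝒦 →L[ℂ] 𝒦) : adjoint (lm A x) = lm A (star x) :=
  ((eq_adjoint_iff _ _).2 (inner_lm x)).symm

theorem lm_add (x y : 𝒦 →L[ℂ] 𝒦) : lm A (x + y) = lm A x + lm A y :=
  ContinuousLinearMap.ext fun ξ => map_add (HH A).orthogonalProjectionOnto (diag x ξ) (diag y ξ)

theorem lm_smul (c : ℂ) (x : 𝒦 →L[ℂ] 𝒦) : lm A (c • x) = c • lm A x :=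
  ContinuousLinearMap.ext fun ξ => map_smul (HH A).orthogonalProjectionOnto c (diag x ξ)

theorem lm_zero : lm A 0 = 0 := add_eq_left.1 ((lm_add 0 0).symm.trans (by rw [add_zero]))

theorem lm_sub (x y : 𝒦 →L[ℂ] 𝒦) : lm A (x - y) = lm A x - lm A y :=
  eq_sub_of_add_eq (by rw [← lm_add, sub_add_cancel])

theorem lm_sum {ι : Type*} (s : Finset ι) (f : ι → 𝒦 →L[ℂ] 𝒦) :
    lm A (∑ i ∈ s, f i) = ∑ i ∈ s, lm A (f i) :=
  map_sum (AddMonoidHom.mk' (lm A) lm_add) f s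

theorem lm_one : lm A 1 = 1 := ContinuousLinearMap.ext fun ξ => Subtype.ext (coe_rs ξ.2)

theorem lm_vv (h : A.vec T ∈ HH A) (h' : A.HS T) (x : 𝒦 →L[ℂ] 𝒦) :
    lm A x (vv A T) = vv A (x * T) :=
  congrArg (HH A).orthogonalProjectionOnto ((congrArg (diag x) (coe_vv h)).trans (diag_vec h' x))

theorem lm_v (hd : d ∈ D A) (x : 𝒦 →L[ℂ] 𝒦) : lm A x (vv A d) = vv A (x * d) :=
  lm_vv (mem_cl hd) hd.2 x

variable (A) in
/-- the operators which preserve `HH A` -/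
def Inv (x : 𝒦 →L[ℂ] 𝒦) : Prop := ∀ ξ : HH A, diag x ξ ∈ HH A

theorem inv_of (h : ∀ d ∈ D A, A.vec (x * d) ∈ HH A) : Inv A x :=
  (bimA A).ind ((Submodule.isClosed_topologicalClosure _).preimage
    ((diag x).continuous.comp continuous_subtype_val)) fun d hd => by
      rw [coe_vv (mem_cl hd), diag_vec hd.2]; exact h d hd

theorem Inv.coe (h : Inv A x) (ξ : HH A) : (lm A x ξ : l2 𝒦) = diag x ξ := coe_rs (h ξ)

theorem Inv.lm_mul (h : Inv A y) (x : 𝒦 →L[ℂ] 𝒦) : lm A (x * y) = lm A x * lm A y :=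
  ContinuousLinearMap.ext fun ξ =>
    congrArg (fun η => (HH A).orthogonalProjectionOnto (diag x η)) (h.coe ξ).symm

theorem rm_v (hy : Cm A.𝓦 y) (hd : d ∈ D A) : rm A y (vv A d) = vv A (d * y) := (bimA A).R_v hy hd

theorem norm_rm (hy : Cm A.𝓦 y) (ξ : HH A) : ‖rm A y ξ‖ ≤ ‖y‖ * ‖ξ‖ := (bimA A).norm_R hy ξ

theorem adjoint_rm (hy : Cm A.𝓦 y) : adjoint (rm A y) = rm A (star y) := (bimA A).adjoint_R hy

theorem rm_mul (hx : Cm A.𝓦 x) (hy : Cm A.𝓦 y) : rm A (x * y) = rm A y * rm A x :=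
  (bimA A).R_mul hx hy (P092CP.cm_mul hx hy)

theorem rm_add (hx : Cm A.𝓦 x) (hy : Cm A.𝓦 y) : rm A (x + y) = rm A x + rm A y :=
  (bimA A).R_add hx hy (cm_add hx hy)

theorem rm_one : rm A 1 = 1 := (bimA A).R_one cm_one

theorem rm_zero : rm A 0 = 0 := (bimA A).ext fun d hd => by
  rw [rm_v cm_zero hd, mul_zero, (bimA A).zero]; rfl

theorem rm_sum {ι : Type*} (s : Finset ι) {f : ι → 𝒦 →L[ℂ] 𝒦} (h : ∀ i ∈ s, Cm A.𝓦 (f i)) :
    rm A (∑ i ∈ s, f i) = ∑ i ∈ s, rm A (f i) := (bimA A).ext fun d hd => by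
  rw [rm_v (cm_sum s h) hd, Finset.mul_sum, (bimA A).sum s fun i hi => (bimA A).mulD' hd (h i hi),
    sum_apply]
  exact Finset.sum_congr rfl fun i hi => (rm_v (h i hi) hd).symm

theorem Pj_sq (X : Set Γ) : A.Pj X * A.Pj X = A.Pj X := by
  have h := congrArg (A.Pj X * ·) (A.Pj_compl X)
  simpa only [mul_add, A.Pj_disj X Xᶜ disjoint_compl_right, add_zero, mul_one] using h

theorem norm_Pj (X : Set Γ) : ‖A.Pj X‖ ≤ 1 := norm_proj (A.Pj_star X) (Pj_sq X)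

theorem Pj_ne {γ δ : Γ} (h : γ ≠ δ) : A.Pj {γ} * A.Pj {δ} = 0 :=
  A.Pj_disj _ _ (Set.disjoint_singleton.2 h)

end amb

end Vale.Agent.P092SY

namespace Vale.Agent.P092FA.Fr

open Vale.Agent.P092CP Vale.Agent.P092ST Vale.Agent.P092ST.Amb Vale.Agent.P092SY
open Vale.Agent.P092.RC (Cm)

variable {G G' K 𝒦 : Type} [Group G] [TopologicalSpace G] [IsTopologicalGroup G]
  [LocallyCompactSpace G] [SecondCountableTopology G] [T2Space G] [MeasurableSpace G] [BorelSpace G]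
  [Group G'] [TopologicalSpace G'] [IsTopologicalGroup G'] [LocallyCompactSpace G']
  [SecondCountableTopology G'] [T2Space G'] [MeasurableSpace G'] [BorelSpace G']
  [NormedAddCommGroup K] [InnerProductSpace ℂ K] [CompleteSpace K] {μ : Measure G}
  [μ.IsHaarMeasure] {μ' : Measure G'} [μ'.IsHaarMeasure] {W : Set (K →L[ℂ] K)}
  [NormedAddCommGroup 𝒦] [InnerProductSpace ℂ 𝒦] [CompleteSpace 𝒦]
  {C : Cpl μ μ' W} {A : Amb G C.t.Γ 𝒦} (Φ : Fr C A) {d x y T T' : 𝒦 →L[ℂ] 𝒦} {g h : G}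

theorem ext_ι {F : Type} [NormedAddCommGroup F] [NormedSpace ℂ F] {T T' : 𝒦 →L[ℂ] F}
    (e : ∀ i ξ, T (Φ.ι i ξ) = T' (Φ.ι i ξ)) : T = T' := ContinuousLinearMap.ext fun ξ =>
  ((Φ.tot ξ).mapL T).unique (by simpa only [e] using (Φ.tot ξ).mapL T')

theorem norm_ι (i : ℕ) (ξ : K) : ‖Φ.ι i ξ‖ = ‖ξ‖ := by
  rw [norm_eq_sqrt_re_inner (𝕜 := ℂ), ← adjoint_inner_right, Φ.iso, ← norm_eq_sqrt_re_inner]

theorem enorm_tot (ξ : 𝒦) : ‖ξ‖ₑ ^ 2 = ∑' i, ‖adjoint (Φ.ι i) ξ‖ₑ ^ 2 := by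
  have h : HasSum (fun i => ‖adjoint (Φ.ι i) ξ‖ ^ 2) (‖ξ‖ ^ 2) := by
    simpa only [innerSL_apply_apply, ← adjoint_inner_left (Φ.ι _), RCLike.reCLM_apply,
      inner_self_eq_norm_sq] using ((Φ.tot ξ).mapL (innerSL ℂ ξ)).mapL RCLike.reCLM
  simp only [← ofReal_norm, ← ENNReal.ofReal_pow (norm_nonneg _)]
  rw [← ENNReal.ofReal_tsum_of_nonneg (fun _ => sq_nonneg _) h.summable, h.tsum_eq]

/-- operators which are diagonal for the frame -/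
theorem adj_diag {a : K →L[ℂ] K} (e : ∀ i ξ, T (Φ.ι i ξ) = Φ.ι i (a ξ)) (i : ℕ) (ξ : 𝒦) :
    adjoint (Φ.ι i) (T ξ) = a (adjoint (Φ.ι i) ξ) :=
  DFunLike.congr_fun (Φ.ext_ι (T := adjoint (Φ.ι i) ∘L T) (T' := a ∘L adjoint (Φ.ι i))
    fun j η => by
      rcases eq_or_ne i j with rfl | h
      · simp only [comp_apply, e, Φ.iso]
      · simp only [comp_apply, e, Φ.orth i j h, map_zero]) ξ

theorem U_Ω (g : G) (i : ℕ) : Φ.U g (A.Ω i) = A.Ω i := by rw [Φ.Ω_eq, Φ.U_ι, C.V_Ω]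

theorem adj_U (g : G) (i : ℕ) (ξ : 𝒦) :
    adjoint (Φ.ι i) (Φ.U g ξ) = C.V g (adjoint (Φ.ι i) ξ) := Φ.adj_diag (Φ.U_ι g) i ξ

theorem adj_Pj (X : Set C.t.Γ) (i : ℕ) (ξ : 𝒦) :
    adjoint (Φ.ι i) (A.Pj X ξ) = C.t.P (cells C.t X) (adjoint (Φ.ι i) ξ) :=
  Φ.adj_diag (Φ.Pj_ι X) i ξ

theorem star_U (g : G) : star (Φ.U g) = Φ.U g⁻¹ := Φ.ext_ι fun i ξ => ext_inner_left ℂ fun η => by
  rw [star_eq_adjoint, adjoint_inner_right, ← adjoint_inner_left, Φ.adj_U, Φ.U_ι,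
    ← adjoint_inner_left (Φ.ι i), ← C.adj_V, adjoint_inner_right]

theorem norm_U (g : G) : ‖Φ.U g‖ ≤ 1 :=
  norm_le_of_star (by rw [Φ.star_U, pi_inv_mul]; exact norm_one_le)

theorem meas_cells (X : Set C.t.Γ) : MeasurableSet (cells C.t X) :=
  have := C.t.cnt
  MeasurableSet.biUnion (Set.to_countable X) fun γ _ => C.t.meas_cell γ

theorem U_Pj (g : G) (X : Set C.t.Γ) : Φ.U g * A.Pj X = A.Pj X * Φ.U g := Φ.ext_ι fun i ξ => by
  rw [mul_ap, mul_ap, Φ.Pj_ι, Φ.U_ι, Φ.U_ι, Φ.Pj_ι]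
  exact congrArg _ (ap_eq (C.V_m g (Bd.ind (meas_cells X))) ξ)

theorem cm_of_deg (h : A.Deg g T) : Cm A.𝓦 (T * Φ.U g⁻¹) :=
  deg_one_iff.1 ((h.mul (Φ.U_deg g⁻¹)).cast (mul_inv_cancel g))

theorem cm_conj (hy : Cm A.𝓦 y) (g : G) : Cm A.𝓦 (Φ.U g * y * Φ.U g⁻¹) :=
  Φ.cm_of_deg ((Φ.U_deg g).mul1 (deg_one_iff.2 hy))

theorem cm_rg (g : G) (hy : A.Deg h y) : Cm A.𝓦 (Φ.U g * y * Φ.U (g * h)⁻¹) :=
  Φ.cm_of_deg ((Φ.U_deg g).mul hy)

theorem hs_U (T : 𝒦 →L[ℂ] 𝒦) (g : G) : A.HS (T * Φ.U g) ↔ A.HS T := by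
  simp only [HS, mul_ap, Φ.U_Ω]

theorem vec_U (T : 𝒦 →L[ℂ] 𝒦) (g : G) : A.vec (T * Φ.U g) = A.vec T := by
  by_cases h : A.HS T
  · exact lp.ext (funext fun i => by rw [((Φ.hs_U T g).2 h).vec_ap, h.vec_ap, mul_ap, Φ.U_Ω])
  · rw [vec, vec, dif_neg h, dif_neg (mt (Φ.hs_U T g).1 h)]

theorem vv_U (T : 𝒦 →L[ℂ] 𝒦) (g : G) : vv A (T * Φ.U g) = vv A T :=
  congrArg (HH A).orthogonalProjectionOnto (Φ.vec_U T g)

theorem mem_D (h : A.Deg g T) (h' : A.HS T) : T * Φ.U g⁻¹ ∈ D A :=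
  ⟨Φ.cm_of_deg h, (Φ.hs_U T _).2 h'⟩

include Φ

theorem vec_mem (h : A.Deg g T) (h' : A.HS T) : A.vec T ∈ HH A :=
  Φ.vec_U T g⁻¹ ▸ mem_cl (Φ.mem_D h h')

theorem norm_vv (h : A.Deg g T) (h' : A.HS T) : ‖vv A T‖ = A.hs T :=
  congrArg norm (coe_vv (Φ.vec_mem h h'))

theorem inner_vv (h : A.Deg g T) (h' : A.HS T) {k : G} (e : A.Deg k T') (e' : A.HS T') :
    ⟪vv A T, vv A T'⟫_ℂ = A.ip T T' := by
  rw [Submodule.coe_inner, coe_vv (Φ.vec_mem h h'), coe_vv (Φ.vec_mem e e')]; rfl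

theorem inv_deg (hx : A.Deg g x) : Inv A x :=
  inv_of fun d hd => Φ.vec_mem (hx.mul1 (deg_one_iff.2 hd.1)) (hd.2.mul x)

theorem lm_T (h : A.Deg g T) (h' : A.HS T) (x : 𝒦 →L[ℂ] 𝒦) : lm A x (vv A T) = vv A (x * T) :=
  lm_vv (Φ.vec_mem h h') h' x

/-- right multiplication on the vectors of degree `g` -/
theorem rg_T (hT : A.Deg g T) (h' : A.HS T) (hy : A.Deg h y) :
    Φ.rg g h y (vv A T) = vv A (T * y) := by
  rw [← Φ.vv_U T g⁻¹, rg, rm_v (Φ.cm_rg g hy) (Φ.mem_D hT h'), ← mul_assoc, Φ.vv_U, ← mul_assoc,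
    mul_assoc T, pi_inv_mul, mul_one]

theorem norm_conj (g h : G) (y : 𝒦 →L[ℂ] 𝒦) : ‖Φ.U g * y * Φ.U h‖ ≤ ‖y‖ :=
  (norm_mul_le _ _).trans ((mul_le_of_le_one_right (norm_nonneg _) (Φ.norm_U h)).trans
    ((norm_mul_le _ _).trans (mul_le_of_le_one_left (norm_nonneg _) (Φ.norm_U g))))

/-- left and right multiplications commute -/
theorem lm_rm (hx : A.Deg h x) (hy : Cm A.𝓦 y) (ξ : HH A) :
    lm A x (rm A y ξ) = rm A (Φ.U h * y * Φ.U h⁻¹) (lm A x ξ) :=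
  (bimA A).fext ((lm A x).continuous.comp (rm A y).continuous)
    ((rm A _).continuous.comp (lm A x).continuous) (fun d hd => by
      have h1 := Φ.rg_T (hx.mul1 (deg_one_iff.2 hd.1)) (hd.2.mul x) (deg_one_iff.2 hy)
      rw [rg, mul_one] at h1
      rw [Function.comp, Function.comp, rm_v hy hd, lm_v hd, lm_v ((bimA A).mulD' hd hy), h1, mul_assoc]) ξ

/-- an approximate unit in the ideal -/
theorem norm_le_of_D {c : ℝ} (hc : 0 ≤ c) (h : ∀ d ∈ D A, ‖d‖ ≤ 1 → star d = d → ‖x * d‖ ≤ c) :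
    ‖x‖ ≤ c := opNorm_le_bound _ hc fun ξ => by
  have e : ∀ (F : Finset ℕ) i η, (∑ j ∈ F, Φ.ι j ∘L adjoint (Φ.ι j)) (Φ.ι i η) =
      if i ∈ F then Φ.ι i η else 0 := fun F i η => by
    rw [sum_apply, ← Finset.sum_ite_eq' F i fun _ => Φ.ι i η]
    refine Finset.sum_congr rfl fun j _ => ?_
    split_ifs with h
    · rw [h, comp_apply, Φ.iso]
    · rw [comp_apply, Φ.orth j i h, map_zero]
  refine le_of_tendsto' ((x.continuous.tendsto _).comp (Φ.tot ξ)).norm fun F => ?_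
  have h1 : star (∑ j ∈ F, Φ.ι j ∘L adjoint (Φ.ι j)) = ∑ j ∈ F, Φ.ι j ∘L adjoint (Φ.ι j) := by
    simp only [star_sum, star_eq_adjoint, adjoint_comp, adjoint_adjoint]
  have h2 := h _ ⟨(Φ.cm_iff _).2 fun i j => ?_, hs_iff.2 (summable_of_ne_finset_zero (s := F)
    fun i hi => by rw [Φ.Ω_eq, e, if_neg hi]; simp)⟩ (norm_proj h1 (Φ.ext_ι fun i η => by
      rw [mul_ap, e]; split_ifs with h; exacts [by rw [e, if_pos h], map_zero _])) h1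
  · simpa only [mul_ap, sum_apply, comp_apply, Function.comp] using le_of_opNorm_le _ h2 ξ
  · by_cases hij : i = j ∧ j ∈ F
    · refine cast (congrArg _ (ContinuousLinearMap.ext fun η => Eq.symm ?_)) C.t.M_one
      rw [comp_apply, comp_apply, e, if_pos hij.2, hij.1, Φ.iso]; rfl
    · refine cast (congrArg _ (ContinuousLinearMap.ext fun η => Eq.symm ?_)) C.t.M_zero
      rw [comp_apply, comp_apply, e]
      split_ifs with h
      exacts [Φ.orth i j (fun a => hij ⟨a, h⟩) η, map_zero _]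

end Vale.Agent.P092FA.Fr
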