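import Vale.Agent.P092SY.Pos
import Vale.Agent.P092ST.Edge
import Vale.Agent.P092NW.Defs
import Vale.Agent.P092ES.Tr

/-!
P092 (helper11), the concrete two-sided system.
-/

set_option linter.all false

open scoped InnerProductSpace ENNReal
open MeasureTheory Filter Topology ContinuousLinearMap

namespace Vale.Agent.P092FA

open Vale.Agent.P092CP Vale.Agent.P092ST Vale.Agent.P092ST.Amb Vale.Agent.P092SY
open Vale.Agent.P092.RC (Cm Moore)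

variable {G G' K 𝒦 : Type} [Group G] [TopologicalSpace G] [IsTopologicalGroup G]
  [LocallyCompactSpace G] [SecondCountableTopology G] [T2Space G] [MeasurableSpace G] [BorelSpace G]
  [Group G'] [TopologicalSpace G'] [IsTopologicalGroup G'] [LocallyCompactSpace G']
  [SecondCountableTopology G'] [T2Space G'] [MeasurableSpace G'] [BorelSpace G']
  [NormedAddCommGroup K] [InnerProductSpace ℂ K] [CompleteSpace K] {μ : Measure G}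
  [μ.IsHaarMeasure] {μ' : Measure G'} [μ'.IsHaarMeasure] {W : Set (K →L[ℂ] K)}
  [NormedAddCommGroup 𝒦] [InnerProductSpace ℂ 𝒦] [CompleteSpace 𝒦]
  {C : Cpl μ μ' W} {A : Amb G C.t.Γ 𝒦} (Φ : Fr C A) {d x y T T' ω : 𝒦 →L[ℂ] 𝒦} {g h : G}
  {a : K →L[ℂ] K}

theorem vv_sub (h : A.HS T) (h' : A.HS T') : vv A (T - T') = vv A T - vv A T' :=
  (congrArg (HH A).orthogonalProjectionOnto (h.vec_sub h')).trans (map_sub _ _ _)

theorem vv_add (h : A.HS T) (h' : A.HS T') : vv A (T + T') = vv A T + vv A T' :=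
  (congrArg (HH A).orthogonalProjectionOnto (h.vec_add h')).trans (map_add _ _ _)

theorem vv_smul (h : A.HS T) (c : ℂ) : vv A (c • T) = c • vv A T :=
  (congrArg (HH A).orthogonalProjectionOnto (h.vec_smul c)).trans (map_smul _ _ _)

theorem coe_H0 (ξ : C.t.LM) :
    ((H0 C).orthogonalProjectionOnto ξ : C.t.LM) = ξ - ⟪C.t.vM 1, ξ⟫_ℂ • C.t.vM 1 :=
  (Submodule.starProjection_orthogonal_val ξ).trans (by
    rw [Submodule.starProjection_unit_singleton ℂ ((C.t.norm_vM C.t.M_one).trans C.t.nΩ)])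

theorem coe_pr0 (ha : C.t.M a) : ((pr0 C (a C.t.Ω) : C.t.LM) : K) = a C.t.Ω - C.t.τ a • C.t.Ω := by
  have h := congrArg Subtype.val (coe_H0 (C.t.vM a))
  rw [C.t.inner_vM C.t.M_one ha, Submodule.coe_sub, Submodule.coe_smul, C.t.coe_vM ha,
    C.t.coe_vM C.t.M_one] at h
  exact h

theorem σ0_pr0 (ha : C.t.M a) (g : G) :
    σ0 C g (pr0 C (a C.t.Ω)) = pr0 C ((C.s.π g * a * C.s.π g⁻¹) C.t.Ω) := Subtype.ext <| by
  change C.admM.rep g ((H0 C).orthogonalProjectionOnto (C.t.vM a)) =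
    (H0 C).orthogonalProjectionOnto (C.t.vM _)
  rw [coe_H0, coe_H0, map_sub, map_smul, C.rep_one, ← C.admM.rep_v g ha, ← C.admM.inner_rep g,
    C.rep_one]

theorem norm_pr0 (ξ : K) : ‖pr0 C ξ‖ ≤ ‖ξ‖ :=
  ((H0 C).norm_orthogonalProjectionOnto_apply_le _).trans
    (C.t.LM.norm_orthogonalProjectionOnto_apply_le _)

theorem urep_σ0 (C : Cpl μ μ' W) : P092.H933.URep (σ0 C) :=
  ⟨fun g ξ => C.admM.norm_rep g ξ, fun ξ => tendsto_subtype_rng.2 (C.admM.urep.cont ξ)⟩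

theorem nofix_σ0 (C : Cpl μ μ' W) {S : Set G} (hS : Moore S) (v : H0 C)
    (h : ∀ g ∈ S, σ0 C g v = v) : v = 0 :=
  Subtype.ext (C.fix_M hS (fun g hg => congrArg Subtype.val (h g hg))
    (Submodule.mem_orthogonal_singleton_iff_inner_left.1 v.2))

namespace Fr

theorem cn : P092ES.Cn C A (Φ.ι 0) where
  iso := Φ.iso 0
  Ω := Φ.Ω_eq 0
  V := Φ.V_eq
  down T hT := (Φ.cm_iff T).1 hT 0 0
  up g x hx := by
    have h : Cm A.𝓦 (Φ.ι 0 ∘L x ∘L adjoint (Φ.ι 0)) := (Φ.cm_iff _).2 fun i j => by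
      by_cases hij : i = 0 ∧ j = 0
      · refine cast (congrArg _ (ContinuousLinearMap.ext fun η => Eq.symm ?_)) hx
        simp only [hij.1, hij.2, comp_apply, Φ.iso]
      · refine cast (congrArg _ (ContinuousLinearMap.ext fun η => Eq.symm ?_)) C.t.M_zero
        rcases not_and_or.1 hij with h | h
        · exact Φ.orth i 0 h _
        · simp only [comp_apply, Φ.orth 0 j (Ne.symm h), map_zero, zero_apply]
    refine cast (congrArg _ (ContinuousLinearMap.ext fun η => ?_))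
      ((deg_one_iff.2 h).one_mul (Φ.U_deg g))
    simp only [mul_ap, comp_apply, Φ.adj_U]
  Pj X := Φ.Pj_ι X 0

include Φ

theorem esc (h : NIM G') : A.Esc := Φ.cn.esc h

theorem gap {p : ℕ} {F : Fin p → G} {θ : ℝ} (hθ : θ < 1)
    (h : ∀ v, ‖(p : ℂ)⁻¹ • ∑ i, σ0 C (F i) v‖ ≤ θ * ‖v‖) : A.Gap F :=
  Φ.cn.gap hθ fun x hx h0 => by
    have h1 := h (pr0 C (x C.t.Ω))
    simpa only [σ0_pr0 hx, ← Submodule.norm_coe, Submodule.coe_smul, Submodule.coe_sum,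
      coe_pr0 hx, coe_pr0 (C.M_σ hx _), C.τ_σ hx, h0, zero_smul, sub_zero] using h1

theorem fext {Z : Type*} [TopologicalSpace Z] [T2Space Z] (g : G) {f f' : HH A → Z}
    (hf : Continuous f) (hf' : Continuous f')
    (e : ∀ T, A.Deg g T → A.HS T → f (vv A T) = f' (vv A T)) (ξ : HH A) : f ξ = f' ξ :=
  (bimA A).fext hf hf' (fun d hd => Φ.vv_U d g ▸ e _ ((deg_one_iff.2 hd.1).one_mul (Φ.U_deg g))
    ((Φ.hs_U d g).2 hd.2)) ξ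

theorem jm_T (hω : A.Iso ω) (hT : A.Deg g T) (h' : A.HS T) : Φ.jm ω g (vv A T) =
    pr0 C ((adjoint (Φ.ι 0) ∘L (star ω * (T * ω * A.V g⁻¹)) ∘L Φ.ι 0) C.t.Ω) := by
  have h1 := hω.degV g⁻¹
  have h2 := Φ.rg_T hT h' h1
  rw [rg, mul_inv_cancel, inv_one, map_one, mul_one, ← mul_assoc] at h2
  change pr0 C (adjoint (Φ.ι 0) ((star ω) ((rm A _ (vv A T) : l2 𝒦) 0))) = _
  rw [h2, coe_vv (Φ.vec_mem (hT.mul h1) (h'.mul_right hT h1)), (h'.mul_right hT h1).vec_ap,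
    Φ.Ω_eq, ← mul_assoc]
  rfl

omit Φ in
theorem deg_z (hω : A.Iso ω) (hT : A.Deg g T) : A.Deg 1 (star ω * (T * ω * A.V g⁻¹)) :=
  hω.deg.star1.one_mul (((hT.mul1 hω.deg).mul (deg_V g⁻¹)).cast (mul_inv_cancel g))

theorem ct_lm (hx : A.Deg h x) (h1 : ‖x‖ ≤ 1) : (∀ v, ‖lm A x v‖ ≤ ‖v‖) ∧
    ∀ (v : HH A) c, Am v c → Am (lm A x v) c :=
  ⟨fun v => (norm_lm x v).trans (mul_le_of_le_one_left (norm_nonneg _) h1),
    fun _ c ⟨d, hd, e, hc⟩ => ⟨_, Φ.mem_D (hx.mul1 (deg_one_iff.2 hd.1)) (hd.2.mul x),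
      by rw [e, lm_v hd, Φ.vv_U], (norm_mul_le _ _).trans ((mul_le_of_le_one_right (norm_nonneg _)
        (Φ.norm_U _)).trans ((norm_mul_le _ _).trans
          ((mul_le_of_le_one_left (norm_nonneg _) h1).trans hc)))⟩⟩

omit Φ in
theorem ct_rm (hy : Cm A.𝓦 y) (h1 : ‖y‖ ≤ 1) : (∀ v, ‖rm A y v‖ ≤ ‖v‖) ∧
    ∀ (v : HH A) c, Am v c → Am (rm A y v) c :=
  ⟨fun v => (norm_rm hy v).trans (mul_le_of_le_one_left (norm_nonneg _) h1),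
    fun _ c ⟨d, hd, e, hc⟩ => ⟨_, (bimA A).mulD' hd hy, by rw [e, rm_v hy hd],
      (norm_mul_le _ _).trans ((mul_le_of_le_one_right (norm_nonneg _) h1).trans hc)⟩⟩

theorem norm_of_lm (hx : A.Deg h x) (e : ∀ (v : HH A) c, Am v c → Am (lm A x v) c) : ‖x‖ ≤ 1 :=
  Φ.norm_le_of_D zero_le_one fun d hd h1 _ => by
    obtain ⟨d', h2, h3, h4⟩ := e _ 1 ⟨d, hd, rfl, h1⟩
    rw [lm_v hd, ← Φ.vv_U _ h⁻¹] at h3
    rw [← (bimA A).eq_of_v (Φ.mem_D (hx.mul1 (deg_one_iff.2 hd.1)) (hd.2.mul x)) h2 h3] at h4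
    have h5 := norm_mul_le1 h4 (Φ.norm_U h)
    rwa [mul_assoc, pi_inv_mul, mul_one] at h5

theorem norm_of_rm (hy : Cm A.𝓦 y) (e : ∀ (v : HH A) c, Am v c → Am (rm A y v) c) : ‖y‖ ≤ 1 :=
  (norm_star y).symm.trans_le (Φ.norm_le_of_D zero_le_one fun d hd h1 h5 => by
    obtain ⟨d', h2, h3, h4⟩ := e _ 1 ⟨d, hd, rfl, h1⟩
    rw [rm_v hy hd] at h3
    rw [← h5, ← star_mul, norm_star, (bimA A).eq_of_v ((bimA A).mulD' hd hy) h2 h3]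
    exact h4)

theorem adj_rg (g : G) (hy : A.Deg h y) : adjoint (Φ.rg g h y) = Φ.rg (g * h) h⁻¹ (star y) := by
  rw [rg, rg, adjoint_rm (Φ.cm_rg g hy), star_mul, star_mul, Φ.star_U, Φ.star_U, inv_inv,
    mul_inv_cancel_right, mul_assoc]

theorem ct_rg (g : G) (hy : A.Deg h y) (h1 : ‖y‖ ≤ 1) : (∀ v, ‖Φ.rg g h y v‖ ≤ ‖v‖) ∧
    ∀ (v : HH A) c, Am v c → Am (Φ.rg g h y v) c :=
  ct_rm (Φ.cm_rg g hy) ((Φ.norm_conj _ _ y).trans h1)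

theorem jm_ge (hω : A.Iso ω) (g : G) (v : HH A) :
    ‖lm A (A.ζ ω 1) (Φ.rg g 1 (A.ζ ω 1) v) - ⟪vv A (A.ζ ω g), v⟫_ℂ • vv A (A.ζ ω g)‖ =
      ‖Φ.jm ω g v‖ := by
  refine Φ.fext g (f := fun v => ‖lm A (A.ζ ω 1) (Φ.rg g 1 (A.ζ ω 1) v) -
      ⟪vv A (A.ζ ω g), v⟫_ℂ • vv A (A.ζ ω g)‖) (f' := fun v => ‖Φ.jm ω g v‖)
    (((map_continuous (lm A (A.ζ ω 1) * Φ.rg g 1 (A.ζ ω 1))).sub
      ((innerSL ℂ (vv A (A.ζ ω g))).continuous.smul continuous_const)).norm)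
    (Φ.jm ω g).continuous.norm (fun T hT h' => ?_) v
  have h1 := deg_z hω hT
  have h2 := hT.mul (hω.deg_ζ 1)
  have h3 := h'.mul_right hT (hω.deg_ζ 1)
  have h4 : A.ip (A.ζ ω g) T = A.τ (star ω * (T * ω * A.V g⁻¹)) := by
    rw [τ_eq, ← i0_conj, ← i0_V ((hT.mul1 hω.deg).cast (one_mul g).symm) hω.deg,
      ← ip_col' (h'.mul_right hT hω.deg) (col_p ω g), ← ip_conj, ζ, h'.ip_mul_right
        (hs_col (col_p ω g)) (hT.cast (mul_one g).symm) (hω.degV g) hω.deg.star1, star_star]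
  obtain ⟨z, hz⟩ : ∃ z, z = star ω * (T * ω * A.V g⁻¹) := ⟨_, rfl⟩
  have h5 : A.V 1 * z = z := by rw [hz, ← mul_assoc, hω.row]
  have h6 : A.ζ ω 1 * (T * A.ζ ω 1) - A.τ z • A.ζ ω g = ω * ((z - A.τ z • 1) * A.V g) * star ω := by
    rw [sub_mul, mul_sub, sub_mul, smul_mul_assoc, one_mul, mul_smul_comm, smul_mul_assoc, hz,
      mul_assoc (star ω), mul_assoc _ (A.V g⁻¹), V_inv_mul, ζ, ζ, hω.col,
      mul_assoc T ω (A.V 1), hω.col]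
    simp only [mul_assoc]
  rw [← hz] at h1 h4
  have h7 := (h1.sub (deg_id.smul (A.τ z))).one_mul (deg_V g)
  have h8 : A.HS _ := hs_col (col_p (A := A) (z - A.τ z • 1) g)
  have h9 := (Φ.cm_iff z).1 (deg_one_iff.1 h1) 0 0
  have h10 : (z - A.τ z • 1) * A.V g = star ω * (ω * ((z - A.τ z • 1) * A.V g) * star ω) * ω := by
    rw [mul_assoc, mul_assoc, hω.iso, mul_assoc ω, col_p, hω.iso', sub_mul, mul_sub, ← mul_assoc,
      h5, smul_mul_assoc, one_mul, mul_smul_comm, p_mul_V]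
  have h11 := hω.deg.one_mul h7
  have h12 := (h8.mul ω).mul_right h11 hω.deg.star1
  beta_reduce
  rw [Φ.rg_T hT h' (hω.deg_ζ 1), Φ.lm_T h2 h3, Φ.inner_vv (hω.deg_ζ g) (hω.hs_ζ g) hT h', h4,
    ← vv_smul (hω.hs_ζ g), ← vv_sub (h3.mul _) ((hω.hs_ζ g).smul _), h6,
    Φ.norm_vv (h11.mul1 hω.deg.star1) h12, Φ.jm_T hω hT h', ← hz]
  calc _ = A.hs ((z - A.τ z • 1) * A.V g) := le_antisymm
        (((h8.mul ω).hs_mul_right1 h11 hω.deg.star1 hω.nrm').trans (h8.hs_mul1 hω.nrm)) (by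
          conv_lhs => rw [h10]
          exact ((h12.mul _).hs_mul_right1 (hω.deg.star1.one_mul (h11.mul1 hω.deg.star1)) hω.deg
            hω.nrm).trans (h12.hs_mul1 hω.nrm'))
    _ = ‖(adjoint (Φ.ι 0) ∘L z ∘L Φ.ι 0) C.t.Ω - C.t.τ (adjoint (Φ.ι 0) ∘L z ∘L Φ.ι 0) • C.t.Ω‖ := by
        rw [hs_eq_n2 (col_p _ g), n2_V (h1.sub (deg_id.smul _)), n2, ← Φ.norm_ι 0]
        conv_lhs => rw [← h5]
        simp [Φ.V_eq, Φ.Ω_eq, Amb.τ, Side.τ, adjoint_inner_right, ← adjoint_inner_left (Φ.ι 0),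
          Φ.iso]
    _ = _ := (congrArg norm (coe_pr0 h9)).symm

theorem ext_T {F : Type} [NormedAddCommGroup F] [NormedSpace ℂ F] (g : G) {a b : HH A →L[ℂ] F}
    (e : ∀ T, A.Deg g T → A.HS T → a (vv A T) = b (vv A T)) : a = b :=
  ContinuousLinearMap.ext (Φ.fext g a.continuous b.continuous e)

theorem jm_le (hω : A.Iso ω) (g : G) (v : HH A) : ‖Φ.jm ω g v‖ ≤ ‖v‖ := by
  have h1 : ‖adjoint (Φ.ι 0) ∘L star ω‖ ≤ 1 := (opNorm_comp_le _ _).trans (mul_le_one₀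
    ((LinearIsometryEquiv.norm_map _ _).trans_le (opNorm_le_bound _ zero_le_one fun ξ => by
      rw [Φ.norm_ι, one_mul])) (norm_nonneg _) hω.nrm')
  have h2 := (ct_rm (deg_one_iff.1 ((((Φ.U_deg g).mul1 hω.deg).mul (deg_V g⁻¹)).cast
    (mul_inv_cancel g))) (norm_mul_le1 (norm_mul_le1 (Φ.norm_U g) hω.nrm) (norm_V _))).1 v
  have h3 := lp.norm_apply_le_norm two_ne_zero (rm A (Φ.U g * ω * A.V g⁻¹) v : l2 𝒦) 0
  have h4 := le_of_opNorm_le _ h1 ((rm A (Φ.U g * ω * A.V g⁻¹) v : l2 𝒦) 0)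
  rw [one_mul] at h4
  exact (norm_pr0 (C := C) ((adjoint (Φ.ι 0) ∘L star ω)
    ((rm A (Φ.U g * ω * A.V g⁻¹) v : l2 𝒦) 0))).trans (h4.trans (h3.trans h2))

theorem jm_L (hω : A.Iso ω) (h g : G) :
    Φ.jm ω (h * g) ∘L lm A (A.ζ ω h) = σ0 C h ∘L Φ.jm ω g := Φ.ext_T g fun T hT h' => by
  rw [comp_apply, comp_apply, Φ.lm_T hT h', Φ.jm_T hω ((hω.deg_ζ h).mul hT) (h'.mul _),
    Φ.jm_T hω hT h', σ0_pr0 ((Φ.cm_iff _).1 (deg_one_iff.1 (deg_z hω hT)) 0 0), mul_inv_rev,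
    ← A.V_mul, ζ]
  simp only [mul_assoc, hω.iso']
  rw [← mul_assoc (A.V 1), p_mul_V]
  simp only [mul_ap, comp_apply, Φ.V_eq, Φ.iso]

theorem jm_R (hω : A.Iso ω) (g s : G) :
    Φ.jm ω (g * s) ∘L Φ.rg g s (A.ζ ω s) = Φ.jm ω g := Φ.ext_T g fun T hT h' => by
  rw [comp_apply, Φ.rg_T hT h' (hω.deg_ζ s), Φ.jm_T hω (hT.mul (hω.deg_ζ s))
    (h'.mul_right hT (hω.deg_ζ s)), Φ.jm_T hω hT h', mul_assoc T, hω.ζ_mul, mul_assoc T,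
    mul_assoc ω, A.V_mul, mul_inv_rev, mul_inv_cancel_left, ← mul_assoc T]

theorem in_L (hω : A.Iso ω) (h g : G) (v : HH A) :
    ⟪vv A (A.ζ ω (h * g)), lm A (A.ζ ω h) v⟫_ℂ = ⟪vv A (A.ζ ω g), v⟫_ℂ := by
  rw [← inner_lm, Φ.lm_T (hω.deg_ζ _) (hω.hs_ζ _), star_ζ, hω.ζζ, inv_mul_cancel_left]

theorem in_R (hω : A.Iso ω) (g s : G) (v : HH A) :
    ⟪vv A (A.ζ ω (g * s)), Φ.rg g s (A.ζ ω s) v⟫_ℂ = ⟪vv A (A.ζ ω g), v⟫_ℂ := by
  rw [← adjoint_inner_left, Φ.adj_rg g (hω.deg_ζ s),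
    Φ.rg_T (hω.deg_ζ _) (hω.hs_ζ _) (hω.deg_ζ s).star, star_ζ, hω.ζζ, mul_inv_cancel_right]

theorem rg_mul (g : G) {s s' : G} (hx : A.Deg s x) (hy : A.Deg s' y) :
    Φ.rg (g * s) s' y * Φ.rg g s x = Φ.rg g (s * s') (x * y) := Φ.ext_T g fun T hT h' => by
  rw [mul_ap, Φ.rg_T hT h' hx, Φ.rg_T (hT.mul hx) (h'.mul_right hT hx) hy,
    Φ.rg_T hT h' (hx.mul hy), mul_assoc]

theorem lm_Mf_le {f f' : C.t.Γ → ℝ} (hg : P092WN.Bd f') (h : ∀ γ, |f γ| ≤ |f' γ|) (v : HH A) :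
    ‖lm A (Mf A f) v‖ ≤ ‖lm A (Mf A f') v‖ := by
  rw [← Submodule.norm_coe, ← Submodule.norm_coe (lm A (Mf A f') v), (Φ.inv_Mf hg).coe,
    (Φ.inv_Mf (hg.imp fun c hc γ => (h γ).trans (hc γ))).coe]
  exact lp.norm_mono two_ne_zero fun i => Φ.norm_Mf_le hg h _

theorem rt_comm (hx : A.Deg h x) {b : G → HH A →L[ℂ] HH A} (hb : Φ.Rt b) (g : G) (v : HH A) :
    lm A x (b g v) = b (h * g) (lm A x v) := by
  obtain ⟨y, hy, e⟩ := hb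
  rw [e, e, Φ.lm_rm hx (Φ.cm_conj hy g), mul_inv_rev, map_mul, map_mul]
  simp only [mul_assoc]

theorem rt_rg {s : G} (hy : A.Deg s y) : Φ.Rt fun g => Φ.rg g s y :=
  ⟨_, Φ.cm_of_deg hy, fun g => by simp only [rg, mul_inv_rev, map_mul, mul_assoc]⟩

/-- **the concrete two-sided system** -/
noncomputable def sys (hω : A.Iso ω) : P092WN.Sys G C.t.Γ (HH A) (H0 C) where
  m f := lm A (Mf A f)
  ζ g := vv A (tw A ω g)
  L h := lm A (tw A ω h)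
  R g s := Φ.rg g s (tw A ω s)
  Lf := Lf
  Rt := Φ.Rt
  Am := Am
  σ := σ0 C
  j := Φ.jm ω
  m_add f g hf hg v := by rw [Φ.Mf_add hf hg, lm_add]; rfl
  m_smul c f hf v := by
    rw [Φ.Mf_mul ⟨|c|, fun _ => le_rfl⟩ hf, Φ.Mf_const, smul_mul_assoc, one_mul, lm_smul]; rfl
  m_mul f g hf hg v := by rw [Φ.Mf_mul hf hg, (Φ.inv_Mf hg).lm_mul]; rfl
  m_one v := by rw [Φ.Mf_const, Complex.ofReal_one, one_smul, lm_one]; rfl
  m_le _ _ := Φ.lm_Mf_le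
  m_real f hf v := Complex.conj_eq_iff_im.1 (by
    rw [inner_conj_symm, ← inner_lm, Φ.star_Mf hf])
  ζ_norm g := (Φ.norm_vv (hω.deg_ζ g) (hω.hs_ζ g)).trans_le (hω.hs_ζ_le g)
  L_ζ h g := (Φ.lm_T (hω.deg_ζ g) (hω.hs_ζ g) _).trans (congrArg _ (hω.ζζ h g))
  R_ζ g s := (Φ.rg_T (hω.deg_ζ g) (hω.hs_ζ g) (hω.deg_ζ s)).trans (congrArg _ (hω.ζζ g s))
  L_le h := (Φ.ct_lm (hω.deg_ζ h) (hω.norm_ζ h)).1
  R_le g s := (Φ.ct_rg g (hω.deg_ζ s) (hω.norm_ζ s)).1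
  L_lf h := ⟨_, hω.deg_ζ h, rfl⟩
  R_rt s := Φ.rt_rg (hω.deg_ζ s)
  comm := by
    rintro h _ b ⟨x, hx, rfl⟩ hb
    exact Φ.rt_comm hx hb
  am_zero := ⟨0, (D A).zero_mem, (bimA A).zero.symm, norm_zero.le⟩
  am_add := by
    rintro _ _ c c' ⟨d, hd, rfl, h⟩ ⟨d', hd', rfl, h'⟩
    exact ⟨_, add_mem hd hd', (vv_add hd.2 hd'.2).symm, norm_add_le_of_le h h'⟩
  am_smul := by
    rintro c _ c' ⟨d, hd, rfl, h⟩
    exact ⟨_, (D A).smul_mem _ hd, (vv_smul hd.2 _).symm, by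
      rw [norm_smul, Complex.norm_real]; exact mul_le_mul_of_nonneg_left h (abs_nonneg _)⟩
  am_mono _ _ _ := fun ⟨d, hd, e, h⟩ h' => ⟨d, hd, e, h.trans h'⟩
  am_ζ g := ⟨_, Φ.mem_D (hω.deg_ζ g) (hω.hs_ζ g), (Φ.vv_U _ _).symm,
    norm_mul_le1 (hω.norm_ζ g) (Φ.norm_U _)⟩
  σ_norm := (urep_σ0 C).iso
  j_le := Φ.jm_le hω
  j_L h g := DFunLike.congr_fun (Φ.jm_L hω h g)
  j_R g s := DFunLike.congr_fun (Φ.jm_R hω g s)
  in_L := Φ.in_L hω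
  in_R := Φ.in_R hω
  j_ge g v := (Φ.jm_ge hω g v).le

theorem ex (hω : A.Iso ω) : P092NW.Ex (Φ.sys hω) where
  m_mul := (Φ.sys hω).m_mul
  ζ_one g := ((Φ.sys hω).ζ_norm g).antisymm (by
    have h1 := (Φ.sys hω).L_le g⁻¹ ((Φ.sys hω).ζ g)
    have h2 := ((hω.hs_ζ 1).mul_right (hω.deg_ζ 1) hω.deg).n2_le.trans
      ((hω.hs_ζ 1).hs_mul_right1 (hω.deg_ζ 1) hω.deg hω.nrm)
    rw [hω.ζ_mul, hω.col, hω.n2_eq, ← Φ.norm_vv (hω.deg_ζ 1) (hω.hs_ζ 1)] at h2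
    rw [(Φ.sys hω).L_ζ, inv_mul_cancel] at h1
    exact h2.trans h1)
  am_nonneg _ _ := fun ⟨_, _, _, h⟩ => (norm_nonneg _).trans h
  L_mul h h' := DFunLike.congr_fun (((Φ.inv_deg (hω.deg_ζ h')).lm_mul _).symm.trans
    (congrArg _ (hω.ζζ h h')))
  R_mul g s s' := DFunLike.congr_fun ((Φ.rg_mul g (hω.deg_ζ s) (hω.deg_ζ s')).trans
    (congrArg _ (hω.ζζ s s')))
  L_adj h v w := (congrArg (fun x => ⟪lm A x v, w⟫_ℂ) ((star_ζ ω h⁻¹).trans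
    (by rw [inv_inv]; rfl)).symm).trans (inner_lm _ v w)
  L_ct h := Φ.ct_lm (hω.deg_ζ h) (hω.norm_ζ h)
  R_ct g s := Φ.ct_rg g (hω.deg_ζ s) (hω.norm_ζ s)
  lf_zero h := ⟨0, deg_zero h, lm_zero.symm⟩
  lf_add := by
    rintro h _ _ ⟨x, hx, rfl⟩ ⟨y, hy, rfl⟩
    exact ⟨_, hx.add hy, (lm_add x y).symm⟩
  lf_mul := by
    rintro h h' _ _ ⟨x, hx, rfl⟩ ⟨y, hy, rfl⟩
    exact ⟨_, hx.mul hy, ((Φ.inv_deg hy).lm_mul x).symm⟩
  lf_adj := by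
    rintro h _ ⟨x, hx, rfl⟩ hc
    exact adjoint_lm (A := A) x ▸ Φ.ct_lm hx.star ((norm_star x).trans_le (Φ.norm_of_lm hx hc.2))
  rt_zero := ⟨0, cm_zero, fun g => by rw [mul_zero, zero_mul, rm_zero]⟩
  rt_one := ⟨1, cm_one, fun g => by rw [mul_one, pi_mul_inv, rm_one]⟩
  rt_add := fun b b' ⟨y, hy, e⟩ ⟨y', hy', e'⟩ => ⟨_, cm_add hy hy', fun g => by
    simp only [e, e', mul_add, add_mul, rm_add (Φ.cm_conj hy g) (Φ.cm_conj hy' g)]⟩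
  rt_mul := fun b b' ⟨y, hy, e⟩ ⟨y', hy', e'⟩ => ⟨_, P092CP.cm_mul hy' hy, fun g => by
    simp only [e, e', ← rm_mul (Φ.cm_conj hy' g) (Φ.cm_conj hy g)]
    simp only [mul_assoc]
    rw [← mul_assoc (Φ.U g⁻¹), pi_inv_mul, one_mul]⟩
  rt_shift := fun b s ⟨y, hy, e⟩ => ⟨_, Φ.cm_conj hy s, fun g => by
    simp only [e, mul_inv_rev, map_mul, mul_assoc]⟩
  rt_star := fun b ⟨y, hy, e⟩ => ⟨_, cm_star hy, fun g => by
    simp only [e, adjoint_rm (Φ.cm_conj hy g)]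
    simp only [star_mul, Φ.star_U, inv_inv, mul_assoc]⟩
  rt_adj := fun b g ⟨y, hy, e⟩ hc => by
    rw [e] at hc ⊢
    exact adjoint_rm (Φ.cm_conj hy g) ▸ ct_rm (cm_star (Φ.cm_conj hy g))
      ((norm_star _).trans_le (Φ.norm_of_rm (Φ.cm_conj hy g) hc.2))

end Fr

end Vale.Agent.P092FA
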