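import Vale.Agent.P092ST.Hs
import Vale.Agent.P092CP.L2

/-!
P092 (helper11), the concrete two-sided system: the standard bimodule of the ambient algebra.
-/

set_option linter.all false

open scoped InnerProductSpace ENNReal
open MeasureTheory Filter Topology ContinuousLinearMap

namespace Vale.Agent.P092SY

open Vale.Agent.P092CP Vale.Agent.P092ST Vale.Agent.P092ST.Amb
open Vale.Agent.P092.RC (Cm)
open Vale.Agent.P092.H325 (exists_ulim)

variable {G Γ 𝒦 : Type} [Group G] [TopologicalSpace G] [Group Γ] [NormedAddCommGroup 𝒦]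
  [InnerProductSpace ℂ 𝒦] [CompleteSpace 𝒦] {A : Amb G Γ 𝒦} {D : Submodule ℂ (𝒦 →L[ℂ] 𝒦)}

theorem bim (hD : ∀ a, a ∈ D ↔ Cm A.𝓦 a ∧ A.HS a) : Bim {a | Cm A.𝓦 a} D (pv D A.vec) :=
  have m : ∀ a, Cm A.𝓦 a → ∀ d ∈ D, a * d ∈ D := fun a ha d hd =>
    (hD _).2 ⟨P092CP.cm_mul ha ((hD _).1 hd).1, ((hD _).1 hd).2.mul a⟩
  have s : ∀ d ∈ D, adjoint d ∈ D := fun d hd => (hD _).2 ⟨cm_star ((hD _).1 hd).1,
    ((hD _).1 hd).2.star (deg_one_iff.2 ((hD _).1 hd).1)⟩
  have n : ∀ d ∈ D, ‖pv D A.vec d‖ = A.hs d := fun d hd => congrArg norm (coe_pv (w := A.vec) hd)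
  { toGns := gns_pv (fun x a y b => ((hD _).1 a).2.vec_add ((hD _).1 b).2)
      fun c x a => ((hD _).1 a).2.vec_smul c
    adjA := fun a ha => cm_star ha
    mulD := m
    adjD := s
    inn := fun a ha d hd d' hd' => by
      rw [Submodule.coe_inner, Submodule.coe_inner, coe_pv hd, coe_pv hd', coe_pv (m a ha d' hd'),
        coe_pv (m (adjoint a) (cm_star ha) d hd)]
      exact (((hD _).1 hd).2.ip_mul ((hD _).1 hd').2 a).symm
    le := fun a ha d hd => by rw [n _ (m a ha d hd), n _ hd]; exact ((hD _).1 hd).2.hs_mul a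
    iso := fun d hd => by
      rw [n _ (s d hd), n _ hd]; exact ((hD _).1 hd).2.hs_star (deg_one_iff.2 ((hD _).1 hd).1)
    inj := fun d hd h => A.faith d ((hD _).1 hd).1 fun i => by
      rw [← ((hD _).1 hd).2.vec_ap, ← coe_pv (w := A.vec) hd, h]; rfl
    clo := fun r => isClosed_of_closure_subset fun η hη => by
      obtain ⟨U, hU⟩ := exists_ultra hη
      obtain ⟨y, h1, h2⟩ := exists_ulim U (fun d => d.1) r fun d => d.2.2
      have h3 : Cm A.𝓦 y := cm_of_weak (Eventually.of_forall fun d => ((hD _).1 d.2.1).1)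
        fun ξ ζ => h2 ζ ξ
      have h4 : ∀ i, y (A.Ω i) = η.1 i := fun i => ext_inner_left ℂ fun ζ =>
        tendsto_nhds_unique (h2 ζ _) ((tendsto_const_nhds.inner
          ((((lp.evalCLM ℂ _ 2 i).continuous.comp continuous_subtype_val).tendsto η).comp hU)).congr
            fun d => by
              rw [← ((hD _).1 d.2.1).2.vec_ap, ← coe_pv (w := A.vec) d.2.1]; rfl)
      have h5 : A.HS y := by rw [HS, funext h4]; exact η.1.2
      refine ⟨y, ⟨(hD _).2 ⟨h3, h5⟩, h1⟩, Subtype.ext ?_⟩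
      rw [coe_pv ((hD _).2 ⟨h3, h5⟩)]
      exact lp.ext (funext fun i => (h5.vec_ap i).trans (h4 i)) }

end Vale.Agent.P092SY
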